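import Vale.Agent.P365.T1c.NormalB

/-!
# P365-T2, chain V4: the NORMAL inequality, fixed region, fixed exterior, vector of test functions
(helper256)

`fixed_vec` : sum over a finite family `F` of functions with `∑ k, (F k z - F k x)² ≤ M2` on the
region; any symmetric matrix.
-/

set_option autoImplicit false
set_option linter.all false

open MeasureTheory Finset Function Matrix Complex P365L P365O
open scoped ENNReal

namespace P365V4.H256

open P365T1 P365T1.MAff P365T1.OneVar P365T1.Switch P365T1.Normal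

variable {ι : Type*} [Fintype ι] [DecidableEq ι] {A : Matrix ι ι ℝ}
variable {Λ : Type*} [Fintype Λ] [DecidableEq Λ]

/-- the additive constant is quadratic in the oscillation -/
theorem Cadd_sq (p : Λ → ℝ) (D : Λ → ℝ) (g : Λ) (gp : Λ → GP) (lam κg ag κ E ε m Dm : ℝ) (n : ℕ) :
    Cadd p D g gp lam κg ag κ E ε m Dm n =
      ENNReal.ofReal (m ^ 2) * Cadd p D g gp lam κg ag κ E ε 1 Dm n := by
  unfold Cadd
  have h1 : ENNReal.ofReal (4 * m ^ 2) = ENNReal.ofReal (m ^ 2) * ENNReal.ofReal (4 * 1 ^ 2) := by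
    rw [← ENNReal.ofReal_mul (sq_nonneg _)]
    congr 1
    ring
  have h2 : ENNReal.ofReal (m ^ 2 * (Real.pi * Dm)) =
      ENNReal.ofReal (m ^ 2) * ENNReal.ofReal (1 ^ 2 * (Real.pi * Dm)) := by
    rw [← ENNReal.ofReal_mul (sq_nonneg _), one_pow, one_mul]
  rw [h1, h2]
  ring

/-- sum over the family of the additive constants -/
theorem sum_Cadd_le {κi : Type*} [Fintype κi] (p : Λ → ℝ) (D : Λ → ℝ) (g : Λ) (gp : Λ → GP)
    (lam κg ag κ E ε Dm : ℝ) (n : ℕ) {mk : κi → ℝ} {R : ℝ} (hR : ∑ k, mk k ^ 2 ≤ R) :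
    ∑ k, Cadd p D g gp lam κg ag κ E ε (mk k) Dm n ≤
      ENNReal.ofReal R * Cadd p D g gp lam κg ag κ E ε 1 Dm n := by
  calc ∑ k, Cadd p D g gp lam κg ag κ E ε (mk k) Dm n
      = ∑ k, ENNReal.ofReal (mk k ^ 2) * Cadd p D g gp lam κg ag κ E ε 1 Dm n :=
        Finset.sum_congr rfl fun k _ => Cadd_sq p D g gp lam κg ag κ E ε (mk k) Dm n
    _ = ENNReal.ofReal (∑ k, mk k ^ 2) * Cadd p D g gp lam κg ag κ E ε 1 Dm n := by
        rw [← Finset.sum_mul, ENNReal.ofReal_sum_of_nonneg fun k _ => sq_nonneg _]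
    _ ≤ _ := mul_le_mul' (ENNReal.ofReal_le_ofReal hR) le_rfl

variable {p : Λ → ℝ} {ν : Λ → Measure ℝ} [∀ k, IsProbabilityMeasure (ν k)] {g : Λ}
variable {reg : Λ → Prop} {lam κg ag κ : ℝ} {D : Λ → ℝ} {ρ : Λ → ℝ → ℝ} {gp : Λ → GP}

/-- **fixed region, fixed exterior, vector of functions** -/
theorem fixed_vec {κi : Type*} [Fintype κi] (hA : A.IsSymm)
    (h : NLaw p ν g reg lam κg ag κ D ρ gp) {E : ℝ}
    {e : (ι → Λ) → ι → ℝ} (he : ∀ l z, 0 < e l z) (he1 : ∀ l z, e l z ≤ 1) {K Q : Finset ι}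
    (hKQ : K ⊆ Q) {n : ℕ} (hn : Q.card ≤ n) {y : ι} (hy : y ∈ Q)
    (hcof : ∀ z (hz : z ∈ K), z ≠ y →
      CofLe A Q E (fun _ => 0) (lam + 1) (c2c E (lam + 1) n) ⟨z, hKQ hz⟩ ⟨y, hy⟩)
    {l' : ι → Λ} (hl' : ∀ z ∈ Q, l' z = g)
    {S : Finset (ι → Λ)} (hS : ∀ l ∈ S, ∀ z ∉ K, l z = l' z)
    (hloc : ∀ l ∈ S, ∀ z ∉ K, e l z = e l' z) {x : ι} (hx : x ∈ K)
    {l2 : ι → Λ} (hreg : ∀ z ∈ Q, reg (l2 z)) (hout : ∀ z ∉ Q, l2 z = l' z)
    (heout : ∀ z ∉ Q, e l2 z = e l' z)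
    {ε : ℝ} (hε : 0 < ε) (hε1 : ε ≤ 1 / 2) {F : κi → ι → ℝ} {M2 : ℝ}
    (hF : ∀ z ∈ Q, ∑ k, (F k z - F k x) ^ 2 ≤ M2) {Dm : ℝ} (hDg : DensLe Dm (ν g))
    (hDy : DensLe Dm (ν (l2 y))) :
    ∑ l ∈ S, Pr p l * ∑ k, FY A ν E e (F k) l x ≤
      Pr p l' * (ENNReal.ofReal (n * M2) * Cadd p D g gp lam κg ag κ E ε 1 Dm n +
        Ceps p D g gp lam κg ag E ε n * ∑ w ∈ Q, ∑ k, FM A ν E e (F k) l' w +
        Ctar p D g lam κg ag κ E ε n * ∑ k, FM A ν E e (F k) l2 y) := by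
  classical
  -- oscillations
  set mk : κi → ℝ := fun k => Real.sqrt (∑ z ∈ Q, (F k z - F k x) ^ 2) with hmk
  have hmk2 : ∀ k, mk k ^ 2 = ∑ z ∈ Q, (F k z - F k x) ^ 2 := fun k =>
    Real.sq_sqrt (Finset.sum_nonneg fun z _ => sq_nonneg _)
  have hosc : ∀ k, ∀ z ∈ Q, |F k z - F k x| ≤ mk k := by
    intro k z hz
    rw [← Real.sqrt_sq_eq_abs]
    refine Real.sqrt_le_sqrt ?_
    exact Finset.single_le_sum (f := fun z => (F k z - F k x) ^ 2) (fun z _ => sq_nonneg _) hz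
  have hM2 : 0 ≤ M2 := (Finset.sum_nonneg fun k _ => sq_nonneg _).trans (hF y hy)
  have hsum : ∑ k, mk k ^ 2 ≤ n * M2 := by
    simp only [hmk2]
    rw [Finset.sum_comm]
    calc ∑ z ∈ Q, ∑ k, (F k z - F k x) ^ 2 ≤ ∑ z ∈ Q, M2 := Finset.sum_le_sum hF
      _ = Q.card * M2 := by rw [Finset.sum_const, nsmul_eq_mul]
      _ ≤ n * M2 := by
          refine mul_le_mul_of_nonneg_right ?_ hM2
          exact_mod_cast hn
  have key : ∀ k : κi, ∑ l ∈ S, Pr p l * FY A ν E e (F k) l x ≤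
      Pr p l' * (Cadd p D g gp lam κg ag κ E ε (mk k) Dm n +
        Ceps p D g gp lam κg ag E ε n * ∑ w ∈ Q, FM A ν E e (F k) l' w +
        Ctar p D g lam κg ag κ E ε n * FM A ν E e (F k) l2 y) := fun k =>
    fixed_one hA h he he1 hKQ hn hy hcof hl' hS hloc hx hreg hout heout hε hε1 (hosc k) hDg hDy
  calc ∑ l ∈ S, Pr p l * ∑ k, FY A ν E e (F k) l x
      = ∑ k, ∑ l ∈ S, Pr p l * FY A ν E e (F k) l x := by
        rw [Finset.sum_comm]
        exact Finset.sum_congr rfl fun l _ => Finset.mul_sum _ _ _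
    _ ≤ ∑ k, Pr p l' * (Cadd p D g gp lam κg ag κ E ε (mk k) Dm n +
        Ceps p D g gp lam κg ag E ε n * ∑ w ∈ Q, FM A ν E e (F k) l' w +
        Ctar p D g lam κg ag κ E ε n * FM A ν E e (F k) l2 y) :=
        Finset.sum_le_sum fun k _ => key k
    _ = Pr p l' * (∑ k, Cadd p D g gp lam κg ag κ E ε (mk k) Dm n +
        Ceps p D g gp lam κg ag E ε n * ∑ w ∈ Q, ∑ k, FM A ν E e (F k) l' w +
        Ctar p D g lam κg ag κ E ε n * ∑ k, FM A ν E e (F k) l2 y) := by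
        rw [← Finset.mul_sum, Finset.sum_add_distrib, Finset.sum_add_distrib, ← Finset.mul_sum,
          ← Finset.mul_sum, Finset.sum_comm (s := Finset.univ) (t := Q)]
    _ ≤ _ := by
        refine mul_le_mul' le_rfl (add_le_add (add_le_add ?_ le_rfl) le_rfl)
        exact sum_Cadd_le p D g gp lam κg ag κ E ε Dm n hsum

end P365V4.H256
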