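import Vale.Agent.P365.V4.PeelV963
import Vale.Agent.P365.V4.Def
import Vale.Agent.P365.T1.NormV125

/-!
# P365-T2, chain V4: the NORMAL inequality for one fixed good configuration, definition (helper256)
-/

set_option autoImplicit false
set_option linter.all false

open MeasureTheory Finset Function Matrix Complex P365L P365O P365L.TL
open scoped ENNReal

namespace P365V4.H256

open P365T1 P365T1.Switch P365T1.Peel P365V4.Peel Vale.Agent.P365.J376

/-- **(A)** on the domain `X`, abstract profile `e`, test functions `F`: the region of `l'` is all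
good; `S` = any set of configurations which are equal to `l'` off the region and whose non-good
sites in the region lie in the core component -/
def NormA4 (D : V3) (N : ℕ) [NeZero N] (X : Finset (Tor N)) {κ : Type} [Fintype κ]
    (F : κ → Tor N → ℝ) (E : ℝ) (e : (Tor N → D.Λ) → Tor N → ℝ) (i : ℕ) (A1 ε1 K2 : ℝ≥0∞) : Prop :=
  ∀ x ∈ X, ∀ l' : Tor N → D.Λ, NX D X i l' x →
    (∀ z ∈ QX D X i l' x, l' z = D.good) → ∀ S : Finset (Tor N → D.Λ),
    (∀ l ∈ S, (∀ z ∉ QX D X i l' x, l z = l' z) ∧
      ∀ z ∈ QX D X i l' x, l z ≠ D.good → z ∈ KX D X i l' x) →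
    ∑ l ∈ S, D.PL l * FY4 D N X F E e l x ≤
      D.PL l' * (A1 + ε1 * ∑ w ∈ QX D X i l' x, FM4 D N X F E e l' w +
        K2 * FM4 D N X F E e (D.insx i x l') (D.yc i x))

end P365V4.H256
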