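import Vale.Agent.P365.V4.H256.NormDef
import Vale.Agent.P365.V4.H256.FixedVec

/-!
# P365-T2, chain V4: the NORMAL inequality for one fixed good configuration (helper256)

`normA4` : domain `X`, abstract profile, vector of test functions.
-/

set_option autoImplicit false
set_option linter.all false

open MeasureTheory Finset Function Matrix Complex P365L P365O P365L.TL
open scoped ENNReal

namespace P365V4.H256

open P365T1 P365T1.MAff P365T1.OneVar P365T1.Switch P365T1.Peel P365T1.Normal P365V4.Peel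
open Vale.Agent.P365.J376

variable {D : V3} {N : ℕ} [NeZero N] {X : Finset (Tor N)} {κi : Type} [Fintype κi]
  {F : κi → Tor N → ℝ} {E : ℝ} {e : (Tor N → D.Λ) → Tor N → ℝ} {i : ℕ}

omit [NeZero N] in
/-- good sites of all configurations have the same profile -/
theorem loc_good [NeZero N] (hloc : LocPr D e) (hgood : ∀ j ≤ D.I, ∀ a, D.pat j a ≠ D.good)
    {l l' : Tor N → D.Λ} {z : Tor N} (h : l z = D.good) (h' : l' z = D.good) :
    e l z = e l' z := by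
  refine hloc l l' z (h.trans h'.symm) fun j hj => ⟨fun hc => ?_, fun hc => ?_⟩
  · exact absurd ((hc.1 z rfl).symm.trans h) (hgood j hj _)
  · exact absurd ((hc.1 z rfl).symm.trans h') (hgood j hj _)

/-- **(A)** of the interface, `V4` -/
theorem normA4_gen (hprob : ∀ k, IsProbabilityMeasure (D.ν k)) {reg : D.Λ → Prop}
    {lam κg ag κ : ℝ} {Dd : D.Λ → ℝ} {ρ : D.Λ → ℝ → ℝ} {gp : D.Λ → GP}
    (hlaw : NLaw D.p D.ν D.good reg lam κg ag κ Dd ρ gp) (hi : i ≤ D.I)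
    (hpos : ∀ l z, 0 < e l z) (he1 : ∀ l z, e l z ≤ 1) (hloc : LocPr D e) (hX : DomX D X)
    (hN2 : 2 ≤ N) (hm : 3 ≤ D.m i) (hmN : D.m i ∣ N)
    (hy : D.y i ∈ blk (D.m i)) (hgood : ∀ j ≤ D.I, ∀ a, D.pat j a ≠ D.good)
    (hreg : ∀ a, reg (D.pat i a)) {Dm : ℝ} (hDg : DensLe Dm (D.ν D.good))
    (hDy : DensLe Dm (D.ν (D.pat i (D.y i)))) {ε : ℝ} (hε : 0 < ε) (hε1 : ε ≤ 1 / 2)
    {Λf : ℝ} (hF : VecLip F Λf) :
    NormA4 D N X F E e i
      (ENNReal.ofReal (((9 * D.m i ^ 2 : ℕ) : ℝ) * Λf ^ 2) *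
        Cadd D.p Dd D.good gp lam κg ag κ E ε (2 * D.m i) Dm (9 * D.m i ^ 2))
      (Ceps D.p Dd D.good gp lam κg ag E ε (9 * D.m i ^ 2))
      (Ctar D.p Dd D.good lam κg ag κ E ε (9 * D.m i ^ 2)) := by
  classical
  haveI := hprob
  intro x hx l' hNrm hl' S hS
  have hlam0 := hlaw.lam0
  have hm0 : 0 < D.m i := by omega
  have hXi : BlkU (D.m i) X := hX i hi
  set K := KX D X i l' x with hK
  set Q := QX D X i l' x with hQ
  set y := D.yc i x with hyd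
  set l2 := D.insx i x l' with hl2
  set n := 9 * D.m i ^ 2 with hn
  have hKQ : K ⊆ Q := KX_sub_QX
  have hCK : Cor (D.m i) x ⊆ K := NX.core hm hXi hx hNrm
  have hbiy : bi (D.m i) y = bi (D.m i) x := V3.bi_yc hmN hy x
  have hxK : x ∈ K := hCK (self_mem_Cor _ x)
  have hyK : y ∈ K := hCK (mem_Cor.2 hbiy)
  have hcard : Q.card ≤ n := card_QX_le hm0
  have hcof : ∀ z (hz : z ∈ K), z ≠ y →
      CofLe (ATX N X) Q E (fun _ => 0) (lam + 1) (c2c E (lam + 1) n)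
        ⟨z, hKQ hz⟩ ⟨y, hKQ hyK⟩ := by
    intro z hz _
    have h1 : CofLe (ATX N X) Q E (fun _ => 0) (lam + 1)
        (c2c E (lam + 1) (IX D X i l' x).card) ⟨z, hKQ hz⟩ ⟨y, hKQ hyK⟩ :=
      cofLe_IX hN2 (by linarith) (fun _ _ => le_rfl) (fun _ _ => zero_le_one) _ _
        (KX_sub_IX hz) hyK
    exact h1.mono (c2c_anti (by linarith) (card_IX_le hm0))
  have hSK : ∀ l ∈ S, ∀ z ∉ K, l z = l' z := by
    intro l hl z hz
    by_cases hzQ : z ∈ Q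
    · rw [hl' z hzQ]
      by_contra hne
      exact hz ((hS l hl).2 z hzQ hne)
    · exact (hS l hl).1 z hzQ
  have hlocS : ∀ l ∈ S, ∀ z ∉ K, e l z = e l' z := by
    intro l hl z hz
    by_cases hzQ : z ∈ Q
    · exact loc_good hloc hgood ((hSK l hl z hz).trans (hl' z hzQ)) (hl' z hzQ)
    · refine prof_offX (x := x) (i := i) hloc hgood hX hx (hS l hl).1 (fun w hw hwK => ?_) hzQ
      by_contra hne
      exact hwK ((hS l hl).2 w hw hne)
  have hbQ : ∀ z, bi (D.m i) z = bi (D.m i) x → z ∈ Q := fun z hz => hKQ (hCK (mem_Cor.2 hz))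
  have hreg2 : ∀ z ∈ Q, reg (l2 z) := by
    intro z hz
    by_cases hb : bi (D.m i) z = bi (D.m i) x
    · have h1 : l2 z = D.pat i (lc (D.m i) z) := V3.ins_in hb
      rw [h1]
      exact hreg _
    · have h1 : l2 z = l' z := V3.ins_out hb
      rw [h1, hl' z hz]
      exact hlaw.reg_g
  have hout : ∀ z ∉ Q, l2 z = l' z := fun z hz => V3.ins_out fun h => hz (hbQ z h)
  have heout : ∀ z ∉ Q, e l2 z = e l' z := by
    intro z hz
    refine prof_offX (x := x) (i := i) hloc hgood hX hx hout (fun w hw hwK => ?_) hz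
    have h1 : bi (D.m i) w ≠ bi (D.m i) x := fun h => hwK (hCK (mem_Cor.2 h))
    exact (V3.ins_out h1).trans (hl' w hw)
  have hl2y : l2 y = D.pat i (D.y i) := by
    have h1 : l2 y = D.pat i (lc (D.m i) y) := V3.ins_in hbiy
    rw [h1]
    congr 1
    exact lc_st' (bIn_bi hmN x) hy
  have hf : ∀ z ∈ Q, ∑ k, (F k z - F k x) ^ 2 ≤ Λf ^ 2 * (2 * (D.m i : ℝ)) ^ 2 := by
    intro z hz
    refine (hF z x).trans (mul_le_mul_of_nonneg_left ?_ (sq_nonneg _))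
    have h1 : ((nrm (z - x) : ℕ) : ℝ) ≤ ((2 * D.m i : ℕ) : ℝ) := by
      exact_mod_cast nrm_QX hm0 hz
    push_cast at h1
    exact pow_le_pow_left₀ (Nat.cast_nonneg _) h1 2
  have key := fixed_vec (κi := κi) (F := F) (E := E) (e := e) (ε := ε)
    (ATX_symm N X) hlaw hpos he1 hKQ hcard (hKQ hyK)
    hcof hl' hSK hlocS hxK hreg2 hout heout hε hε1 hf hDg (by rw [hl2y]; exact hDy)
  have hadd : ENNReal.ofReal ((n : ℝ) * (Λf ^ 2 * (2 * (D.m i : ℝ)) ^ 2)) *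
        Cadd D.p Dd D.good gp lam κg ag κ E ε 1 Dm n =
      ENNReal.ofReal ((n : ℝ) * Λf ^ 2) *
        Cadd D.p Dd D.good gp lam κg ag κ E ε (2 * D.m i) Dm n := by
    have e1 : (n : ℝ) * (Λf ^ 2 * (2 * (D.m i : ℝ)) ^ 2) =
        ((n : ℝ) * Λf ^ 2) * (2 * (D.m i : ℝ)) ^ 2 := by ring
    rw [Cadd_sq D.p Dd D.good gp lam κg ag κ E ε (2 * D.m i) Dm n, e1,
      ENNReal.ofReal_mul (by positivity), mul_assoc]
  rw [hadd] at key
  exact key

/-- **(A)** of the interface, `V4`, admissible profiles -/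
theorem normA4 (hprob : ∀ k, IsProbabilityMeasure (D.ν k)) {reg : D.Λ → Prop}
    {lam κg ag κ : ℝ} {Dd : D.Λ → ℝ} {ρ : D.Λ → ℝ → ℝ} {gp : D.Λ → GP}
    (hlaw : NLaw D.p D.ν D.good reg lam κg ag κ Dd ρ gp) (hi : i ≤ D.I)
    {sb sc εp b1 : ℝ} (hP : Prf D N i sb sc εp b1 e) (hεp : εp ≤ 1)
    (hX : ∀ j ≤ D.I, BlkU (D.m j) X)
    (hN2 : 2 ≤ N) (hm : 3 ≤ D.m i) (hmN : D.m i ∣ N)
    (hy : D.y i ∈ blk (D.m i)) (hgood : ∀ j ≤ D.I, ∀ a, D.pat j a ≠ D.good)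
    (hreg : ∀ a, reg (D.pat i a)) {Dm : ℝ} (hDg : DensLe Dm (D.ν D.good))
    (hDy : DensLe Dm (D.ν (D.pat i (D.y i)))) {ε : ℝ} (hε : 0 < ε) (hε1 : ε ≤ 1 / 2)
    {Λf : ℝ} (hF : VecLip F Λf) :
    NormA4 D N X F E e i
      (ENNReal.ofReal (((9 * D.m i ^ 2 : ℕ) : ℝ) * Λf ^ 2) *
        Cadd D.p Dd D.good gp lam κg ag κ E ε (2 * D.m i) Dm (9 * D.m i ^ 2))
      (Ceps D.p Dd D.good gp lam κg ag E ε (9 * D.m i ^ 2))
      (Ctar D.p Dd D.good lam κg ag κ E ε (9 * D.m i ^ 2)) :=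
  normA4_gen hprob hlaw hi hP.pos (fun l z => (hP.le l z).trans hεp) hP.loc
    hX hN2 hm hmN hy hgood hreg hDg hDy hε hε1 hF

/-- monotonicity in the constants -/
theorem NormA4.mono {A1 A1' ε1 ε1' K2 K2' : ℝ≥0∞} (h : NormA4 D N X F E e i A1 ε1 K2)
    (hA : A1 ≤ A1') (hε : ε1 ≤ ε1') (hK : K2 ≤ K2') : NormA4 D N X F E e i A1' ε1' K2' := by
  intro x hx l' h1 h2 S hS
  refine (h x hx l' h1 h2 S hS).trans ?_
  gcongr

end P365V4.H256
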